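import Vale.Agent.Lib.P356.helper23.Defs

/-!
# P356, pool job C (third copy, helper99): the cut rank of a local operator applied to a product

An operator acting on `C ∪ Aᶜ` with `C ⊆ A`, applied to a product vector across the cut between
`A` and its complement, has cut rank at most `q ^ (2 * C.card)`: the cut matrix factors through
the pairs of configurations on `C`.
-/

namespace Vale.Agent.Lib.P356.H99

open Matrix

open Vale.Agent.Lib.P356

section

variable {Λ : Type*} [Fintype Λ] [DecidableEq Λ] {q : ℕ}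

/-! ### gluing and restricting configurations -/

omit [Fintype Λ] in
theorem glue_of_mem (A : Finset Λ) (a : {x // x ∈ A} → Fin q) (b : {x // x ∉ A} → Fin q)
    (x : Λ) (hx : x ∈ A) : glue A a b x = a ⟨x, hx⟩ :=
  dif_pos hx

omit [Fintype Λ] in
theorem glue_of_not_mem (A : Finset Λ) (a : {x // x ∈ A} → Fin q) (b : {x // x ∉ A} → Fin q)
    (x : Λ) (hx : x ∉ A) : glue A a b x = b ⟨x, hx⟩ :=
  dif_neg hx

omit [Fintype Λ] in
theorem glue_res_in (A : Finset Λ) (a : {x // x ∈ A} → Fin q) (b : {x // x ∉ A} → Fin q) :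
    (fun x : {x // x ∈ A} => glue A a b x.1) = a := by
  funext x
  exact glue_of_mem A a b x.1 x.2

omit [Fintype Λ] in
theorem glue_res_out (A : Finset Λ) (a : {x // x ∈ A} → Fin q) (b : {x // x ∉ A} → Fin q) :
    (fun x : {x // x ∉ A} => glue A a b x.1) = b := by
  funext x
  exact glue_of_not_mem A a b x.1 x.2

omit [Fintype Λ] in
theorem glue_res (A : Finset Λ) (κ : Conf Λ q) :
    glue A (fun x : {x // x ∈ A} => κ x.1) (fun x : {x // x ∉ A} => κ x.1) = κ := by
  funext x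
  by_cases hx : x ∈ A
  · exact glue_of_mem A _ _ x hx
  · exact glue_of_not_mem A _ _ x hx

/-- Configurations are the pairs of a configuration on `A` and a configuration off `A`. -/
def glueEquiv (A : Finset Λ) :
    (({x // x ∈ A} → Fin q) × ({x // x ∉ A} → Fin q)) ≃ Conf Λ q where
  toFun p := glue A p.1 p.2
  invFun κ := (fun x => κ x.1, fun x => κ x.1)
  left_inv p := Prod.ext (glue_res_in A p.1 p.2) (glue_res_out A p.1 p.2)
  right_inv κ := glue_res A κ

omit [Fintype Λ] in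
theorem glueEquiv_apply (A : Finset Λ)
    (p : ({x // x ∈ A} → Fin q) × ({x // x ∉ A} → Fin q)) :
    glueEquiv A p = glue A p.1 p.2 := rfl

/-- The restriction to `C` of a configuration on `A`. -/
def resC (A C : Finset Λ) (hC : C ⊆ A) (a : {x // x ∈ A} → Fin q) : {x // x ∈ C} → Fin q :=
  fun x => a ⟨x.1, hC x.2⟩

/-- The configuration `a` on `A` with its values on `C` replaced by `c`. -/
def repC (A C : Finset Λ) (a : {x // x ∈ A} → Fin q) (c : {x // x ∈ C} → Fin q) :
    {x // x ∈ A} → Fin q :=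
  fun x => if h : x.1 ∈ C then c ⟨x.1, h⟩ else a x

omit [Fintype Λ] in
theorem repC_of_mem (A C : Finset Λ) (a : {x // x ∈ A} → Fin q) (c : {x // x ∈ C} → Fin q)
    (x : {x // x ∈ A}) (hx : x.1 ∈ C) : repC A C a c x = c ⟨x.1, hx⟩ :=
  dif_pos hx

omit [Fintype Λ] in
theorem repC_of_not_mem (A C : Finset Λ) (a : {x // x ∈ A} → Fin q) (c : {x // x ∈ C} → Fin q)
    (x : {x // x ∈ A}) (hx : x.1 ∉ C) : repC A C a c x = a x :=
  dif_neg hx

omit [Fintype Λ] in
theorem resC_repC (A C : Finset Λ) (hC : C ⊆ A) (a : {x // x ∈ A} → Fin q)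
    (c : {x // x ∈ C} → Fin q) : resC A C hC (repC A C a c) = c := by
  funext x
  exact repC_of_mem A C a c ⟨x.1, hC x.2⟩ x.2

omit [Fintype Λ] in
theorem repC_resC (A C : Finset Λ) (hC : C ⊆ A) (a a' : {x // x ∈ A} → Fin q)
    (h : ∀ x : {x // x ∈ A}, x.1 ∉ C → a' x = a x) :
    repC A C a (resC A C hC a') = a' := by
  funext x
  by_cases hx : x.1 ∈ C
  · exact repC_of_mem A C a _ x hx
  · rw [repC_of_not_mem A C a _ x hx]
    exact (h x hx).symm

omit [Fintype Λ] in
theorem glue_repC_mem (A C : Finset Λ) (hC : C ⊆ A) (a : {x // x ∈ A} → Fin q)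
    (c : {x // x ∈ C} → Fin q) (b : {x // x ∉ A} → Fin q) (x : Λ) (hx : x ∈ C) :
    glue A (repC A C a c) b x = c ⟨x, hx⟩ := by
  rw [glue_of_mem A _ b x (hC hx)]
  exact repC_of_mem A C a c ⟨x, hC hx⟩ hx

omit [Fintype Λ] in
theorem glue_repC_not_mem (A C : Finset Λ) (a : {x // x ∈ A} → Fin q)
    (c : {x // x ∈ C} → Fin q) (b : {x // x ∉ A} → Fin q) (x : Λ) (hxA : x ∈ A)
    (hxC : x ∉ C) : glue A (repC A C a c) b x = a ⟨x, hxA⟩ := by
  rw [glue_of_mem A _ b x hxA]
  exact repC_of_not_mem A C a c ⟨x, hxA⟩ hxC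

/-! ### the entries of the operator -/

/-- An entry of `T *ᵥ φ` for a product vector `φ`, as a sum over the two halves. -/
theorem mulVec_glue (A : Finset Λ) (T : Matrix (Conf Λ q) (Conf Λ q) ℂ)
    (f : ({x // x ∈ A} → Fin q) → ℂ) (g : ({x // x ∉ A} → Fin q) → ℂ)
    (φ : Conf Λ q → ℂ) (hφ : ∀ τ, φ τ = f (fun x => τ x.1) * g (fun x => τ x.1))
    (σ : Conf Λ q) :
    (T *ᵥ φ) σ = ∑ a' : {x // x ∈ A} → Fin q, ∑ b' : {x // x ∉ A} → Fin q,
      T σ (glue A a' b') * (f a' * g b') := by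
  have h1 : (T *ᵥ φ) σ = ∑ κ, T σ κ * φ κ := rfl
  rw [h1, ← Equiv.sum_comp (glueEquiv A) (fun κ => T σ κ * φ κ), Fintype.sum_prod_type]
  refine Finset.sum_congr rfl fun a' _ => Finset.sum_congr rfl fun b' _ => ?_
  show T σ (glue A a' b') * φ (glue A a' b') = _
  rw [hφ, glue_res_in, glue_res_out]

/-- The operator does not change the configuration on `A \ C`. -/
theorem entry_zero (A C : Finset Λ) (T : Matrix (Conf Λ q) (Conf Λ q) ℂ)
    (hT : SupportedOn (C ∪ Aᶜ) T) (a a' : {x // x ∈ A} → Fin q) (b b' : {x // x ∉ A} → Fin q)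
    (x : {x // x ∈ A}) (hx : x.1 ∉ C) (hne : a' x ≠ a x) :
    T (glue A a b) (glue A a' b') = 0 := by
  by_contra h0
  have hxX : x.1 ∉ C ∪ Aᶜ := by
    rw [Finset.mem_union, Finset.mem_compl, not_or, not_not]
    exact ⟨hx, x.2⟩
  have h1 := hT.1 _ _ h0 x.1 hxX
  rw [glue_of_mem A a b x.1 x.2, glue_of_mem A a' b' x.1 x.2] at h1
  exact hne h1.symm

/-- The entries of the operator depend only on the configurations on `C` and off `A`. -/
theorem entry_eq [NeZero q] (A C : Finset Λ) (hC : C ⊆ A)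
    (T : Matrix (Conf Λ q) (Conf Λ q) ℂ) (hT : SupportedOn (C ∪ Aᶜ) T)
    (a : {x // x ∈ A} → Fin q) (c1 : {x // x ∈ C} → Fin q) (b b' : {x // x ∉ A} → Fin q) :
    T (glue A a b) (glue A (repC A C a c1) b')
      = T (glue A (repC A C (fun _ => 0) (resC A C hC a)) b)
          (glue A (repC A C (fun _ => 0) c1) b') := by
  have hmem : ∀ x, x ∈ C ∪ Aᶜ → x ∈ A → x ∈ C := by
    intro x hx hxA
    rcases Finset.mem_union.1 hx with h | h
    · exact h
    · exact absurd hxA (Finset.mem_compl.1 h)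
  have hnot : ∀ x, x ∉ C ∪ Aᶜ → x ∈ A ∧ x ∉ C := by
    intro x hx
    rw [Finset.mem_union, Finset.mem_compl, not_or, not_not] at hx
    exact ⟨hx.2, hx.1⟩
  apply hT.2
  · intro x hx
    by_cases hxA : x ∈ A
    · have hxC := hmem x hx hxA
      rw [glue_of_mem A a b x hxA, glue_repC_mem A C hC _ _ b x hxC]
      rfl
    · rw [glue_of_not_mem A a b x hxA, glue_of_not_mem A _ b x hxA]
  · intro x hx
    by_cases hxA : x ∈ A
    · have hxC := hmem x hx hxA
      rw [glue_repC_mem A C hC _ _ b' x hxC, glue_repC_mem A C hC _ _ b' x hxC]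
    · rw [glue_of_not_mem A _ b' x hxA, glue_of_not_mem A _ b' x hxA]
  · intro x hx
    obtain ⟨hxA, hxC⟩ := hnot x hx
    rw [glue_of_mem A a b x hxA, glue_repC_not_mem A C _ _ b' x hxA hxC]
  · intro x hx
    obtain ⟨hxA, hxC⟩ := hnot x hx
    rw [glue_repC_not_mem A C _ _ b x hxA hxC, glue_repC_not_mem A C _ _ b' x hxA hxC]

/-! ### the factorization -/

/-- The left factor: rows are configurations on `A`, columns are pairs of configurations on
`C`. -/
noncomputable def Umat (A C : Finset Λ) (hC : C ⊆ A) (f : ({x // x ∈ A} → Fin q) → ℂ) :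
    Matrix ({x // x ∈ A} → Fin q) (({x // x ∈ C} → Fin q) × ({x // x ∈ C} → Fin q)) ℂ :=
  Matrix.of fun a j => if resC A C hC a = j.1 then f (repC A C a j.2) else 0

/-- The right factor: rows are pairs of configurations on `C`, columns are configurations off
`A`. -/
noncomputable def Vmat [NeZero q] (A C : Finset Λ) (T : Matrix (Conf Λ q) (Conf Λ q) ℂ)
    (g : ({x // x ∉ A} → Fin q) → ℂ) :
    Matrix (({x // x ∈ C} → Fin q) × ({x // x ∈ C} → Fin q)) ({x // x ∉ A} → Fin q) ℂ :=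
  Matrix.of fun j b => ∑ b' : {x // x ∉ A} → Fin q,
    T (glue A (repC A C (fun _ => 0) j.1) b) (glue A (repC A C (fun _ => 0) j.2) b') * g b'

omit [Fintype Λ] in
theorem Umat_apply (A C : Finset Λ) (hC : C ⊆ A) (f : ({x // x ∈ A} → Fin q) → ℂ)
    (a : {x // x ∈ A} → Fin q) (c2 c1 : {x // x ∈ C} → Fin q) :
    Umat A C hC f a (c2, c1) = if resC A C hC a = c2 then f (repC A C a c1) else 0 := rfl

theorem Vmat_apply [NeZero q] (A C : Finset Λ) (T : Matrix (Conf Λ q) (Conf Λ q) ℂ)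
    (g : ({x // x ∉ A} → Fin q) → ℂ) (c2 c1 : {x // x ∈ C} → Fin q)
    (b : {x // x ∉ A} → Fin q) :
    Vmat A C T g (c2, c1) b = ∑ b' : {x // x ∉ A} → Fin q,
      T (glue A (repC A C (fun _ => 0) c2) b) (glue A (repC A C (fun _ => 0) c1) b') * g b' :=
  rfl

/-- The entries of the product of the two factors. -/
theorem Umat_mul_Vmat_apply [NeZero q] (A C : Finset Λ) (hC : C ⊆ A)
    (T : Matrix (Conf Λ q) (Conf Λ q) ℂ) (f : ({x // x ∈ A} → Fin q) → ℂ)
    (g : ({x // x ∉ A} → Fin q) → ℂ) (a : {x // x ∈ A} → Fin q) (b : {x // x ∉ A} → Fin q) :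
    (Umat A C hC f * Vmat A C T g) a b
      = ∑ c1 : {x // x ∈ C} → Fin q, f (repC A C a c1) * ∑ b' : {x // x ∉ A} → Fin q,
          T (glue A (repC A C (fun _ => 0) (resC A C hC a)) b)
            (glue A (repC A C (fun _ => 0) c1) b') * g b' := by
  rw [Matrix.mul_apply, Fintype.sum_prod_type]
  rw [Finset.sum_eq_single (resC A C hC a)]
  · refine Finset.sum_congr rfl fun c1 _ => ?_
    rw [Umat_apply, Vmat_apply, if_pos rfl]
  · intro c2 _ hne
    refine Finset.sum_eq_zero fun c1 _ => ?_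
    rw [Umat_apply, if_neg (Ne.symm hne), zero_mul]
  · intro hnot
    exact absurd (Finset.mem_univ _) hnot

/-- The cut matrix factors through the pairs of configurations on `C`. -/
theorem cut_factor [NeZero q] (A C : Finset Λ) (hC : C ⊆ A)
    (T : Matrix (Conf Λ q) (Conf Λ q) ℂ) (hT : SupportedOn (C ∪ Aᶜ) T)
    (f : ({x // x ∈ A} → Fin q) → ℂ) (g : ({x // x ∉ A} → Fin q) → ℂ)
    (φ : Conf Λ q → ℂ) (hφ : ∀ τ, φ τ = f (fun x => τ x.1) * g (fun x => τ x.1)) :
    cutMatrix A (T *ᵥ φ) = Umat A C hC f * Vmat A C T g := by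
  classical
  ext a b
  rw [Umat_mul_Vmat_apply]
  show (T *ᵥ φ) (glue A a b) = _
  rw [mulVec_glue A T f g φ hφ]
  -- only the configurations that agree with `a` on `A \ C` contribute
  have hsum : ∑ c1 : {x // x ∈ C} → Fin q, ∑ b' : {x // x ∉ A} → Fin q,
        T (glue A a b) (glue A (repC A C a c1) b') * (f (repC A C a c1) * g b')
      = ∑ a' : {x // x ∈ A} → Fin q, ∑ b' : {x // x ∉ A} → Fin q,
        T (glue A a b) (glue A a' b') * (f a' * g b') := by
    refine Finset.sum_of_injOn (repC A C a) ?_ ?_ ?_ ?_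
    · intro c _ c' _ hcc
      have h1 := congrArg (resC A C hC) hcc
      rw [resC_repC, resC_repC] at h1
      exact h1
    · intro c _
      exact Finset.mem_coe.2 (Finset.mem_univ _)
    · intro a' _ hnot
      have hex : ∃ x : {x // x ∈ A}, x.1 ∉ C ∧ a' x ≠ a x := by
        by_contra hcon
        apply hnot
        refine ⟨resC A C hC a', Finset.mem_coe.2 (Finset.mem_univ _),
          repC_resC A C hC a a' ?_⟩
        intro x hx
        by_contra hne
        exact hcon ⟨x, hx, hne⟩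
      obtain ⟨x, hx, hne⟩ := hex
      refine Finset.sum_eq_zero fun b' _ => ?_
      rw [entry_zero A C T hT a a' b b' x hx hne, zero_mul]
    · intro c _
      rfl
  rw [← hsum]
  refine Finset.sum_congr rfl fun c1 _ => ?_
  rw [Finset.mul_sum]
  refine Finset.sum_congr rfl fun b' _ => ?_
  rw [entry_eq A C hC T hT a c1 b b']
  ring

omit [Fintype Λ] in
theorem card_pairs (C : Finset Λ) :
    Fintype.card (({x // x ∈ C} → Fin q) × ({x // x ∈ C} → Fin q)) = q ^ (2 * C.card) := by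
  rw [Fintype.card_prod, Fintype.card_fun, Fintype.card_fin, Fintype.card_coe, ← pow_add,
    two_mul]

theorem rank_cut_le [NeZero q] (A C : Finset Λ) (hC : C ⊆ A)
    (T : Matrix (Conf Λ q) (Conf Λ q) ℂ) (hT : SupportedOn (C ∪ Aᶜ) T)
    (f : ({x // x ∈ A} → Fin q) → ℂ) (g : ({x // x ∉ A} → Fin q) → ℂ)
    (φ : Conf Λ q → ℂ) (hφ : ∀ τ, φ τ = f (fun x => τ x.1) * g (fun x => τ x.1)) :
    (cutMatrix A (T *ᵥ φ)).rank ≤ q ^ (2 * C.card) := by
  rw [cut_factor A C hC T hT f g φ hφ]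
  calc (Umat A C hC f * Vmat A C T g).rank ≤ (Umat A C hC f).rank :=
        Matrix.rank_mul_le_left _ _
    _ ≤ Fintype.card (({x // x ∈ C} → Fin q) × ({x // x ∈ C} → Fin q)) :=
        Matrix.rank_le_card_width _
    _ = q ^ (2 * C.card) := card_pairs C

end

end Vale.Agent.Lib.P356.H99
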